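import Vale.Agent.P207Z.JetC
import Vale.Agent.P207Z.Dyn

/-!
# P207: families with uniform `C^k` bounds near the origin
-/

set_option linter.all false

open Set Filter Topology Metric MeasureTheory Asymptotics
open scoped ContDiff

noncomputable section

namespace Vale.Agent.P207Z.VyB

open Vale.Agent.P207.N3 (JC)

section

variable {ι V V' W W' W'' : Type} [NormedAddCommGroup V] [NormedSpace ℝ V]
  [NormedAddCommGroup V'] [NormedSpace ℝ V'] [NormedAddCommGroup W] [NormedSpace ℝ W]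
  [NormedAddCommGroup W'] [NormedSpace ℝ W'] [NormedAddCommGroup W''] [NormedSpace ℝ W'']
  {k : ℕ} {f g : ι → V → W}

/-- a family with uniform bounds -/
def UB (k : ℕ) (f : ι → V → W) : Prop := ∃ n, ∀ i, CkB k n (f i)

theorem UB.mono {r : ℕ} (h : UB k f) (hr : r ≤ k) : UB r f :=
  h.imp fun _ h i => (h i).mono hr le_rfl

theorem UB.two {k' : ℕ} {g : ι → V' → W'} (h : UB k f) (h' : UB k' g) :
    ∃ n, ∀ i, CkB k n (f i) ∧ CkB k' n (g i) := by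
  obtain ⟨n, h⟩ := h
  obtain ⟨n', h'⟩ := h'
  exact ⟨max n n', fun i => ⟨(h i).mono le_rfl (le_max_left _ _),
    (h' i).mono le_rfl (le_max_right _ _)⟩⟩

theorem UB.fix {f : V → W} (h : ContDiffAt ℝ k f 0) : UB k fun _ : ι => f :=
  (CkB.of_contDiffAt h).imp fun _ h _ => h

theorem UB.const {c : ι → W} (h : ∀ i, ‖c i‖ ≤ 1) : UB k fun i (_ : V) => c i :=
  ⟨1, fun i => CkB.const _ (by simpa using h i)⟩

theorem UB.add (h : UB k f) (h' : UB k g) : UB k fun i q => f i q + g i q := by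
  obtain ⟨n, h⟩ := h.two h'
  exact ⟨2 * n, fun i => (h i).1.add (h i).2⟩

theorem UB.sub (h : UB k f) (h' : UB k g) : UB k fun i q => f i q - g i q := by
  obtain ⟨n, h⟩ := h.two h'
  exact ⟨2 * n, fun i => (h i).1.sub (h i).2⟩

theorem UB.clm (h : UB k f) (L : W →L[ℝ] W') : UB k fun i q => L (f i q) := by
  obtain ⟨n, h⟩ := h
  obtain ⟨n', -, h'⟩ := ckB_clm (V := V) L k n
  exact ⟨n', fun i => h' _ (h i)⟩

theorem UB.bilin {g : ι → V → W'} (B : W →L[ℝ] W' →L[ℝ] W'') (h : UB k f) (h' : UB k g) :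
    UB k fun i q => B (f i q) (g i q) := by
  obtain ⟨n, h⟩ := h.two h'
  obtain ⟨n', -, h'⟩ := ckB_bilin (V := V) B k n
  exact ⟨n', fun i => h' _ _ (h i).1 (h i).2⟩

theorem UB.comp {τ : ι → V' → V} (h : UB k f) (h' : UB (k + 1) τ) (h0 : ∀ i, τ i 0 = 0) :
    UB k fun i q => f i (τ i q) := by
  obtain ⟨n, h⟩ := h.two h'
  obtain ⟨n', -, h'⟩ := ckB_comp (V := V) (V' := V') (W := W) k n
  exact ⟨n', fun i => (h' _ _ (h i).1 (h i).2 (h0 i)).1⟩

theorem UB.poly {N : ℕ} {ζ : ι → Jet N V W} (h : ∀ i, ‖ζ i‖ ≤ 1) : UB k fun i => poly (ζ i) := by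
  have h1 := UB.bilin (ContinuousLinearMap.id ℝ (Jet N V W →L[ℝ] W))
    (UB.fix (ι := ι) (k := k) ((contDiff_polyL (k := N) (V := V) (W := W)).contDiffAt.of_le
      (by exact_mod_cast le_top))) (UB.const h)
  simpa only [ContinuousLinearMap.id_apply, polyL_apply] using h1

theorem UB.taylor (h : UB (k + 1) f) : ∃ C r : ℝ, 0 ≤ C ∧ 0 < r ∧ ∀ i q, ‖q‖ < r →
    ContDiffAt ℝ k (f i) 0 ∧ ‖f i q - Vale.Agent.P207Z.poly (jet k (f i) 0) q‖ ≤ C * ‖q‖ ^ (k + 1) := by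
  obtain ⟨n, h⟩ := h
  refine ⟨n, rad n, Nat.cast_nonneg n, rad_pos n, fun i q hq => ⟨?_, ?_⟩⟩
  · exact ((h i).mono (Nat.le_succ k) le_rfl).contDiffAt (mem_ball_self (rad_pos n))
  · simpa using taylor_bound (h i).smooth ((h i).bd _ le_rfl) (mem_ball_zero_iff.2 hq)

theorem UB.lip (h : UB 1 f) : ∃ C r : ℝ, 0 ≤ C ∧ 0 < r ∧ ∀ i q, ‖q‖ < r →
    ‖f i q - f i 0‖ ≤ C * ‖q‖ := by
  obtain ⟨C, r, hC, hr, h⟩ := UB.taylor (k := 0) h
  exact ⟨C, r, hC, hr, fun i q hq => by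
    simpa [Vale.Agent.P207Z.poly, jet] using (h i q hq).2⟩

theorem norm_poly_zero_le {N : ℕ} (ζ : Jet N V W) : ‖poly ζ 0‖ ≤ ‖ζ‖ := by
  rw [poly_zero]
  refine ((ζ 0).le_opNorm _).trans ?_
  have : IsEmpty (Fin ((0 : Fin (N + 1)) : ℕ)) := inferInstanceAs (IsEmpty (Fin 0))
  rw [Finset.prod_of_isEmpty, mul_one]
  exact norm_le_pi_norm ζ 0

/-- an explicit Lipschitz constant of Taylor polynomials -/
theorem poly_lip {N : ℕ} (ζ : Jet N V W) {u v : V} (hu : ‖u‖ ≤ 2 / 3) (hv : ‖v‖ ≤ 2 / 3) :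
    ‖poly ζ u - poly ζ v‖ ≤ 9 / 2 * ‖ζ‖ * ‖u - v‖ := by
  have h1 : ∀ i : Fin (N + 1), ‖(((i : ℕ).factorial : ℝ))⁻¹ • ζ i (fun _ => u) -
      (((i : ℕ).factorial : ℝ))⁻¹ • ζ i (fun _ => v)‖ ≤
      (2 / 3) ^ (i : ℕ) * (3 / 2 * ‖ζ‖ * ‖u - v‖) := fun i => by
    have h2 := (ζ i).norm_image_sub_le (fun _ => u) (fun _ => v)
    have hp : ∀ w : V, ‖fun _ : Fin i => w‖ ≤ ‖w‖ := fun w =>
      (pi_norm_le_iff_of_nonneg (norm_nonneg w)).2 fun _ => le_rfl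
    have h3 : max ‖fun _ : Fin i => u‖ ‖fun _ : Fin i => v‖ ^ (Fintype.card (Fin i) - 1) ≤
        3 / 2 * (2 / 3) ^ (i : ℕ) := by
      refine (pow_le_pow_left₀ (by positivity)
        (max_le ((hp u).trans hu) ((hp v).trans hv)) _).trans ?_
      rw [Fintype.card_fin]
      rcases (i : ℕ) with _ | j
      · norm_num
      · rw [Nat.add_sub_cancel, pow_succ]
        linarith
    have h4 : ‖(fun _ : Fin i => u) - fun _ : Fin i => v‖ ≤ ‖u - v‖ := hp (u - v)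
    have h5 : (((i : ℕ).factorial : ℝ))⁻¹ * (i : ℕ) ≤ 1 := by
      rw [inv_mul_le_iff₀ (by positivity), mul_one]
      exact_mod_cast Nat.self_le_factorial _
    have h6 : ‖ζ i‖ * (Fintype.card (Fin i)) * max ‖fun _ : Fin i => u‖ ‖fun _ : Fin i => v‖ ^
        (Fintype.card (Fin i) - 1) * ‖(fun _ : Fin i => u) - fun _ : Fin i => v‖ ≤
        ‖ζ‖ * (i : ℕ) * (3 / 2 * (2 / 3) ^ (i : ℕ)) * ‖u - v‖ := by
      have := norm_le_pi_norm ζ i
      gcongr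
      rw [Fintype.card_fin]
    rw [← smul_sub, norm_smul, Real.norm_of_nonneg (by positivity)]
    refine (mul_le_mul_of_nonneg_left (h2.trans h6) (by positivity)).trans ?_
    have h7 : 0 ≤ (2 / 3 : ℝ) ^ (i : ℕ) * (3 / 2 * ‖ζ‖ * ‖u - v‖) := by positivity
    nlinarith [mul_le_mul_of_nonneg_right h5 h7]
  have h2 : ∑ i : Fin (N + 1), (2 / 3 : ℝ) ^ (i : ℕ) ≤ 3 := by
    rw [Fin.sum_univ_eq_sum_range (fun i => (2 / 3 : ℝ) ^ i), geom_sum_eq (by norm_num)]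
    have : (0 : ℝ) ≤ (2 / 3) ^ (N + 1) := by positivity
    rw [div_le_iff_of_neg (by norm_num)]
    linarith
  rw [poly, poly, ← Finset.sum_sub_distrib]
  refine (norm_sum_le_of_le _ fun i _ => h1 i).trans ?_
  rw [← Finset.sum_mul]
  have h3 : 0 ≤ 3 / 2 * ‖ζ‖ * ‖u - v‖ := by positivity
  nlinarith [mul_le_mul_of_nonneg_right h2 h3]

theorem poly_jetL {N : ℕ} (θ : V → V') (L : V → W →L[ℝ] W') (β : Jet N V' W) (a : V) :
    poly (jetL N θ L β) a = poly (jet N (fun q => L q ∘L polyL N V' W (θ q)) 0) a β := by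
  simp [poly, jetL, jet]

end

variable {Γ X B E V W : Type} [Group Γ] [Countable Γ] [MetricSpace X] [ProperSpace X]
  [MulAction Γ X] [IsIsometricSMul Γ X] [MeasurableSpace X] [BorelSpace X]
  [TopologicalSpace B] [CompactSpace B] [T2Space B] [SecondCountableTopology B] [MulAction Γ B]
  [ContinuousConstSMul Γ B] [MeasurableSpace B] [BorelSpace B]
  [NormedAddCommGroup E] [InnerProductSpace ℝ E] [FiniteDimensional ℝ E]
  [NormedAddCommGroup V] [NormedSpace ℝ V] [FiniteDimensional ℝ V]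
  [NormedAddCommGroup W] [NormedSpace ℝ W] {S : Sys Γ X B E V}

/-- uniform bounds around the points of the domains -/
theorem ub_at {ι : Type} {f : X × X → V → W} (hf : JC f S.Dm)
    (hs : ∀ (g : Γ) x y, ∀ q ∈ S.dom x y, f (g • x, g • y) q = f (x, y) q) (D : ℝ) (k : ℕ)
    {x y : ι → X} {q : ι → V} (h : ∀ i, dist (x i) (y i) ≤ D ∧ q i ∈ S.dom (x i) (y i) ∧
      ‖q i‖ ≤ 1 / 6 ∧ ‖S.τ (x i) (y i) (q i)‖ ≤ 1 / 6) :
    (∃ r > 0, ∀ i v, ‖v‖ ≤ r → q i + v ∈ S.dom (x i) (y i)) ∧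
      UB k fun i v => f (x i, y i) (q i + v) := by
  obtain ⟨r, hr, h1⟩ := S.unif_dom D (a := 1 / 6) (a' := 1 / 2) (by norm_num) (by norm_num)
  obtain ⟨C, -, h2⟩ := S.unif_bd hf hs D (a := 1 / 2) (by norm_num) k
  have h3 := fun i v (hv : ‖v‖ ≤ r) => h1 _ _ (h i).1 _ (h i).2.1 (h i).2.2.1 (h i).2.2.2 (q i + v)
    (by simpa using hv)
  obtain ⟨n, hn⟩ := exists_rad_le hr
  obtain ⟨m, hm⟩ := exists_nat_ge C
  have h4 : ∀ v ∈ ball (0 : V) (rad (max n m)), ‖v‖ ≤ r := fun v hv =>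
    (mem_ball_zero_iff.1 hv).le.trans (hn _ (le_max_left _ _))
  refine ⟨⟨r, hr, fun i v hv => (h3 i v hv).1⟩, max n m, fun i => ⟨fun v hv => ?_, ?_⟩⟩
  · exact (((hf.contDiffAt (p := ((x i, y i), q i + v)) (h3 i v (h4 v hv)).1).of_le
      (by exact_mod_cast le_top)).comp v (contDiffAt_const.add contDiffAt_id)).contDiffWithinAt
  · intro j hj v hv
    rw [iteratedFDeriv_comp_add_left]
    have h5 := h3 i v (h4 v hv)
    exact (h2 _ _ (h i).1 _ h5.1 h5.2.1 h5.2.2 j hj).trans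
      (hm.trans (by exact_mod_cast le_max_right n m))

end Vale.Agent.P207Z.VyB
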